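/-
Row 193, chain for S0393.  Aharoni's theorem: every separable metric space embeds
bi-Lipschitz (constants 1/10 and 1) into c_0 = C₀(ℕ, ℝ).

Proof.  z = dense sequence, x0 = base point, r k = 2^k (k : ℤ),
  U k j = {u | d(u, z j) < r k, r k ≤ d(u, z i) for i < j, (5/4) r k ≤ d(u, x0)},
  f k j x = (r k / 2 - d(x, U k j))^+   (0 if U k j is empty).
* each f k j is 1-Lipschitz, 0 ≤ f ≤ r k / 2;
* f k j x = 0 if d(x,x0) ≤ (3/4) r k  (large scales die);
* for fixed k, x: if d(x, z i) < r k / 2 then f k j x = 0 for j > i;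
* if (5/2) r k ≤ d(x,y) and (5/4) r k ≤ d(x,x0) then for the first j with d(x,z j) < r k:
  f k j x = r k / 2, f k j y = 0.
-/
import Mathlib

set_option autoImplicit false

namespace Claimed.Agent.R193.Aharoni

open Set Filter Topology Metric
open scoped ZeroAtInfty

variable {M : Type*} [MetricSpace M]

/-- scale -/
noncomputable def rr (k : ℤ) : ℝ := (2 : ℝ) ^ k

lemma rr_pos (k : ℤ) : 0 < rr k := by unfold rr; positivity

/-- the cells -/
def cell (z : ℕ → M) (x0 : M) (k : ℤ) (j : ℕ) : Set M :=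
  {u | dist u (z j) < rr k ∧ (∀ i < j, rr k ≤ dist u (z i)) ∧ 5 / 4 * rr k ≤ dist u x0}

open Classical in
/-- the coordinate functions -/
noncomputable def coord (z : ℕ → M) (x0 : M) (k : ℤ) (j : ℕ) (x : M) : ℝ :=
  if (cell z x0 k j).Nonempty then max 0 (rr k / 2 - infDist x (cell z x0 k j)) else 0

lemma coord_nonneg (z : ℕ → M) (x0 : M) (k : ℤ) (j : ℕ) (x : M) : 0 ≤ coord z x0 k j x := by
  unfold coord
  split_ifs
  · exact le_max_left _ _
  · exact le_rfl

lemma coord_le (z : ℕ → M) (x0 : M) (k : ℤ) (j : ℕ) (x : M) : coord z x0 k j x ≤ rr k / 2 := by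
  unfold coord
  have h := rr_pos k
  split_ifs
  · have := infDist_nonneg (x := x) (s := cell z x0 k j)
    exact max_le (by linarith) (by linarith)
  · linarith

lemma coord_lip (z : ℕ → M) (x0 : M) (k : ℤ) (j : ℕ) (x y : M) :
    |coord z x0 k j x - coord z x0 k j y| ≤ dist x y := by
  unfold coord
  split_ifs
  · have h1 : |infDist x (cell z x0 k j) - infDist y (cell z x0 k j)| ≤ dist x y := by
      have := (lipschitz_infDist_pt (cell z x0 k j)).dist_le_mul x y
      simpa [Real.dist_eq] using this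
    have h2 := abs_max_sub_max_le_max 0 (rr k / 2 - infDist x (cell z x0 k j)) 0
      (rr k / 2 - infDist y (cell z x0 k j))
    refine h2.trans ?_
    have : rr k / 2 - infDist x (cell z x0 k j) - (rr k / 2 - infDist y (cell z x0 k j))
        = -(infDist x (cell z x0 k j) - infDist y (cell z x0 k j)) := by ring
    rw [this, abs_neg, sub_zero, abs_zero]
    exact max_le dist_nonneg h1
  · simp

/-- if every point of the cell is at distance `≥ r/2` the coordinate vanishes -/
lemma coord_eq_zero (z : ℕ → M) (x0 : M) (k : ℤ) (j : ℕ) (x : M)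
    (h : ∀ u ∈ cell z x0 k j, rr k / 2 ≤ dist x u) : coord z x0 k j x = 0 := by
  unfold coord
  split_ifs with hne
  · have := (le_infDist hne).2 h
    exact max_eq_left (by linarith)
  · rfl

lemma coord_eq_of_mem (z : ℕ → M) (x0 : M) (k : ℤ) (j : ℕ) (x : M)
    (h : x ∈ cell z x0 k j) : coord z x0 k j x = rr k / 2 := by
  unfold coord
  have hne : (cell z x0 k j).Nonempty := ⟨x, h⟩
  rw [if_pos hne, infDist_zero_of_mem h, sub_zero]
  have := rr_pos k
  exact max_eq_right (by linarith)

lemma coord_zero_of_near_base (z : ℕ → M) (x0 : M) (k : ℤ) (j : ℕ) (x : M)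
    (h : dist x x0 ≤ 3 / 4 * rr k) : coord z x0 k j x = 0 := by
  apply coord_eq_zero
  intro u hu
  have h1 := hu.2.2
  have h2 := dist_triangle u x x0
  rw [dist_comm u x] at h2
  linarith

lemma coord_zero_of_lt (z : ℕ → M) (x0 : M) (k : ℤ) (i j : ℕ) (x : M)
    (h : dist x (z i) < rr k / 2) (hij : i < j) : coord z x0 k j x = 0 := by
  apply coord_eq_zero
  intro u hu
  have h1 := hu.2.1 i hij
  have h2 := dist_triangle u x (z i)
  rw [dist_comm u x] at h2
  linarith

/-- separation at the right scale -/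
lemma exists_coord_sep (z : ℕ → M) (hz : DenseRange z) (x0 : M) (k : ℤ) (x y : M)
    (hxy : 5 / 2 * rr k ≤ dist x y) (hx : 5 / 4 * rr k ≤ dist x x0) :
    ∃ j, coord z x0 k j x = rr k / 2 ∧ coord z x0 k j y = 0 := by
  classical
  have hex : ∃ j, dist x (z j) < rr k := by
    obtain ⟨j, hj⟩ := hz.exists_dist_lt x (rr_pos k)
    exact ⟨j, hj⟩
  refine ⟨Nat.find hex, ?_, ?_⟩
  · apply coord_eq_of_mem
    refine ⟨Nat.find_spec hex, ?_, hx⟩
    intro i hi
    exact not_lt.1 (Nat.find_min hex hi)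
  · apply coord_eq_zero
    intro u hu
    have h1 := hu.1
    have h2 := Nat.find_spec hex
    have h3 := dist_triangle x y u
    have h4 := dist_triangle x (z (Nat.find hex)) u
    rw [dist_comm (z (Nat.find hex)) u] at h4
    have h5 := dist_triangle x u y
    rw [dist_comm u y] at h5
    linarith

lemma finite_large (z : ℕ → M) (hz : DenseRange z) (x0 : M) (x : M) (ε : ℝ) (hε : 0 < ε) :
    {p : ℤ × ℕ | ε ≤ coord z x0 p.1 p.2 x}.Finite := by
  classical
  -- lower cut
  obtain ⟨k1, hk1, -⟩ := exists_mem_Ico_zpow (x := 2 * ε) (y := (2 : ℝ)) (by linarith) (by norm_num)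
  -- upper cut
  obtain ⟨n, hn⟩ := pow_unbounded_of_one_lt (4 / 3 * dist x x0) (by norm_num : (1 : ℝ) < 2)
  have hi : ∀ k : ℤ, ∃ i, dist x (z i) < rr k / 2 := fun k =>
    hz.exists_dist_lt x (by have := rr_pos k; linarith)
  choose i0 hi0 using hi
  have hfin : (⋃ k ∈ Set.Icc k1 (n : ℤ), ({k} : Set ℤ) ×ˢ Set.Iic (i0 k)).Finite :=
    Set.Finite.biUnion (Set.finite_Icc k1 (n : ℤ))
      (fun k _ => (Set.finite_singleton k).prod (Set.finite_Iic (i0 k)))
  refine hfin.subset ?_
  rintro ⟨k, j⟩ hp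
  simp only [Set.mem_ofPred_eq] at hp
  have hk_lo : k1 ≤ k := by
    by_contra hlt
    replace hlt := lt_of_not_ge hlt
    have h1 : rr k < (2 : ℝ) ^ k1 := by
      unfold rr
      exact zpow_lt_zpow_right₀ (by norm_num) hlt
    have h2 := coord_le z x0 k j x
    linarith
  have hk_hi : k ≤ (n : ℤ) := by
    by_contra hlt
    replace hlt := lt_of_not_ge hlt
    have h1 : (2 : ℝ) ^ n ≤ rr k := by
      unfold rr
      rw [← zpow_natCast]
      exact zpow_le_zpow_right₀ (by norm_num) hlt.le
    have h2 := coord_zero_of_near_base z x0 k j x (by linarith)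
    linarith
  have hj : j ≤ i0 k := by
    by_contra hlt
    replace hlt := lt_of_not_ge hlt
    have h2 := coord_zero_of_lt z x0 k (i0 k) j x (hi0 k) hlt
    linarith
  simp only [Set.mem_iUnion, Set.mem_prod, Set.mem_singleton_iff, Set.mem_Iic, Set.mem_Icc,
    exists_prop]
  exact ⟨k, ⟨hk_lo, hk_hi⟩, rfl, hj⟩

/-- enumeration of the index set -/
noncomputable def enum : ℕ ≃ ℤ × ℕ := (Denumerable.eqv (ℤ × ℕ)).symm

/-- the embedding -/
noncomputable def emb (z : ℕ → M) (hz : DenseRange z) (x0 : M) (x : M) : C₀(ℕ, ℝ) where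
  toFun n := coord z x0 (enum n).1 (enum n).2 x
  continuous_toFun := continuous_of_discreteTopology
  zero_at_infty' := by
    rw [cocompact_eq_cofinite]
    rw [Metric.tendsto_nhds]
    intro ε hε
    rw [Filter.eventually_cofinite]
    have h := (finite_large z hz x0 x ε hε).preimage (enum.injective.injOn)
    refine h.subset ?_
    intro n hn
    simp only [Set.mem_ofPred_eq, Real.dist_eq, sub_zero, not_lt] at hn
    rw [abs_of_nonneg (coord_nonneg _ _ _ _ _)] at hn
    exact hn

lemma emb_apply (z : ℕ → M) (hz : DenseRange z) (x0 : M) (x : M) (n : ℕ) :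
    emb z hz x0 x n = coord z x0 (enum n).1 (enum n).2 x := rfl

lemma dist_emb_le (z : ℕ → M) (hz : DenseRange z) (x0 : M) (x y : M) :
    dist (emb z hz x0 x) (emb z hz x0 y) ≤ dist x y := by
  rw [← ZeroAtInftyContinuousMap.dist_toBCF_eq_dist]
  rw [BoundedContinuousFunction.dist_le dist_nonneg]
  intro n
  rw [Real.dist_eq]
  exact coord_lip z x0 _ _ x y

lemma le_dist_emb_coord (z : ℕ → M) (hz : DenseRange z) (x0 : M) (x y : M) (k : ℤ) (j : ℕ) :
    |coord z x0 k j x - coord z x0 k j y| ≤ dist (emb z hz x0 x) (emb z hz x0 y) := by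
  rw [← ZeroAtInftyContinuousMap.dist_toBCF_eq_dist]
  have h := BoundedContinuousFunction.dist_coe_le_dist (f := (emb z hz x0 x).toBCF)
    (g := (emb z hz x0 y).toBCF) (enum.symm (k, j))
  rw [Real.dist_eq] at h
  have e1 : (emb z hz x0 x).toBCF (enum.symm (k, j)) = coord z x0 k j x := by
    show emb z hz x0 x (enum.symm (k, j)) = _
    rw [emb_apply]; simp
  have e2 : (emb z hz x0 y).toBCF (enum.symm (k, j)) = coord z x0 k j y := by
    show emb z hz x0 y (enum.symm (k, j)) = _
    rw [emb_apply]; simp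
  rw [e1, e2] at h
  exact h

lemma le_dist_emb (z : ℕ → M) (hz : DenseRange z) (x0 : M) (x y : M) :
    1 / 10 * dist x y ≤ dist (emb z hz x0 x) (emb z hz x0 y) := by
  rcases eq_or_ne x y with rfl | hne
  · simp
  have hD : 0 < dist x y := dist_pos.2 hne
  obtain ⟨k, hk1, hk2⟩ := exists_mem_Ico_zpow (x := 2 / 5 * dist x y) (y := (2 : ℝ))
    (by linarith) (by norm_num)
  have hk1' : 5 / 2 * rr k ≤ dist x y := by unfold rr; linarith
  have hk2' : dist x y < 5 * rr k := by
    unfold rr
    rw [zpow_add₀ (by norm_num : (2 : ℝ) ≠ 0), zpow_one] at hk2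
    linarith
  have htri := dist_triangle_right x y x0
  rcases le_total (dist y x0) (dist x x0) with hle | hle
  · obtain ⟨j, h1, h2⟩ := exists_coord_sep z hz x0 k x y hk1' (by linarith)
    have h := le_dist_emb_coord z hz x0 x y k j
    rw [h1, h2, sub_zero, abs_of_pos (by have := rr_pos k; linarith)] at h
    linarith
  · obtain ⟨j, h1, h2⟩ := exists_coord_sep z hz x0 k y x (by rw [dist_comm]; exact hk1')
      (by linarith)
    have h := le_dist_emb_coord z hz x0 x y k j
    rw [h1, h2, zero_sub, abs_neg, abs_of_pos (by have := rr_pos k; linarith)] at h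
    linarith

/-- **Aharoni's theorem** (constants `1/10`, `1`). -/
theorem aharoni (M : Type*) [MetricSpace M] [TopologicalSpace.SeparableSpace M] :
    ∃ f : M → C₀(ℕ, ℝ), ∀ x y, 1 / 10 * dist x y ≤ dist (f x) (f y) ∧
      dist (f x) (f y) ≤ dist x y := by
  rcases isEmpty_or_nonempty M with hM | hM
  · exact ⟨fun x => (hM.false x).elim, fun x => (hM.false x).elim⟩
  · obtain ⟨z, hz⟩ := TopologicalSpace.exists_dense_seq M
    exact ⟨emb z hz (z 0), fun x y => ⟨le_dist_emb z hz (z 0) x y, dist_emb_le z hz (z 0) x y⟩⟩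

end Claimed.Agent.R193.Aharoni
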