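/-
Row 193, conditional chain for S0393 (B27).

`Crux393` : a separable Banach space `Z` without a linear copy of `c_0` and a surjective
bi-Lipschitz map `Z × c_0 → Z`.
`result_of_crux393 : Crux393 → MainConclusion` (the frozen statement S0393).
The other clauses are soft: `c_0 → Z` is `x ↦ F (0, x)`, metric universality is Aharoni's theorem
(`Claimed.Agent.R193.Aharoni.aharoni`), and a linear isomorphism `Z × c_0 ≃ Z` would put `c_0`
into `Z`.
-/
import Claimed.Statements.S0393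
import Claimed.Agent.R193.Aharoni

set_option autoImplicit false
open Claims Claims.C0334 Claims.C0334.C0Absorption
open scoped ZeroAtInfty

namespace Claimed.Agent.R193.Chain393

/-- The crux of S0393 in Lean form. -/
def Crux393 : Prop :=
  ∃ (Z : Type) (_ : NormedAddCommGroup Z) (_ : NormedSpace ℝ Z),
    CompleteSpace Z ∧ TopologicalSpace.SeparableSpace Z ∧ NoLinearC0 Z ∧
    (∃ F : Z × C0 → Z, Function.Surjective F ∧ BiLip F)

lemma biLip_comp {X Y W : Type*} [MetricSpace X] [MetricSpace Y] [MetricSpace W]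
    {g : Y → W} {f : X → Y} (hg : BiLip g) (hf : BiLip f) : BiLip (g ∘ f) := by
  obtain ⟨c, C, hc, hcC, h⟩ := hg
  obtain ⟨c', C', hc', hcC', h'⟩ := hf
  refine ⟨c * c', C * C', by positivity, ?_, ?_⟩
  · exact mul_le_mul hcC hcC' hc'.le (hc.le.trans hcC)
  · intro x y
    have hC : 0 ≤ C := hc.le.trans hcC
    constructor
    · calc c * c' * dist x y = c * (c' * dist x y) := by ring
        _ ≤ c * dist (f x) (f y) := mul_le_mul_of_nonneg_left (h' x y).1 hc.le
        _ ≤ dist (g (f x)) (g (f y)) := (h _ _).1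
    · calc dist (g (f x)) (g (f y)) ≤ C * dist (f x) (f y) := (h _ _).2
        _ ≤ C * (C' * dist x y) := mul_le_mul_of_nonneg_left (h' x y).2 hC
        _ = C * C' * dist x y := by ring

lemma biLip_aharoni (M : Type) [MetricSpace M] [TopologicalSpace.SeparableSpace M] :
    ∃ f : M → C0, BiLip f := by
  obtain ⟨f, hf⟩ := Claimed.Agent.R193.Aharoni.aharoni M
  refine ⟨f, 1 / 10, 1, by norm_num, by norm_num, fun x y => ⟨(hf x y).1, ?_⟩⟩
  rw [one_mul]
  exact (hf x y).2

lemma biLip_inr (Z : Type) [NormedAddCommGroup Z] : BiLip (fun x : C0 => ((0 : Z), x)) := by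
  refine ⟨1, 1, one_pos, le_rfl, fun x y => ?_⟩
  have : dist ((0 : Z), x) ((0 : Z), y) = dist x y := by
    rw [Prod.dist_eq]
    simp
  rw [this, one_mul]
  exact ⟨le_rfl, le_rfl⟩

theorem result_of_crux393 (h : Crux393) : MainConclusion := by
  obtain ⟨Z, i1, i2, hcomp, hsep, hno, F, hsurj, hF⟩ := h
  have hemb : BiLip (F ∘ fun x : C0 => ((0 : Z), x)) := biLip_comp hF (biLip_inr Z)
  refine ⟨Z, i1, i2, hcomp, hsep, hno, ⟨F, hsurj, hF⟩, ⟨_, hemb⟩, ?_, ?_⟩
  · intro M _ _
    obtain ⟨f, hf⟩ := biLip_aharoni M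
    exact ⟨_, biLip_comp hemb hf⟩
  · rintro ⟨e⟩
    apply hno ((e : (Z × C0) →L[ℝ] Z).comp (ContinuousLinearMap.inr ℝ Z C0))
    set N : ℝ := ‖(e.symm : Z →L[ℝ] (Z × C0))‖ with hN
    have hN0 : 0 ≤ N := (e.symm : Z →L[ℝ] (Z × C0)).opNorm_nonneg
    refine ⟨1 / (N + 1), by positivity, fun x => ?_⟩
    have h1 : ‖((0 : Z), x)‖ ≤ N * ‖e ((0 : Z), x)‖ := by
      have := (e.symm : Z →L[ℝ] (Z × C0)).le_opNorm (e ((0 : Z), x))
      simpa using this
    have h2 : ‖((0 : Z), x)‖ = ‖x‖ := by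
      rw [Prod.norm_def]; simp
    have h3 : ((e : (Z × C0) →L[ℝ] Z).comp (ContinuousLinearMap.inr ℝ Z C0)) x
        = e ((0 : Z), x) := by simp
    rw [h3, div_mul_eq_mul_div, one_mul, div_le_iff₀ (by positivity)]
    have h4 : 0 ≤ ‖e ((0 : Z), x)‖ := norm_nonneg _
    nlinarith

end Claimed.Agent.R193.Chain393
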