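/-
Row 193, chain for S0394: separability of `ℓ_2` (real) and of `c_0(E) = C₀(ℕ, E)`.
-/
import Mathlib

set_option autoImplicit false

namespace Claimed.Agent.R193.Sep

open Set Filter Topology TopologicalSpace
open scoped ZeroAtInfty ENNReal

theorem separable_lp_real {ι : Type*} [Countable ι] {E : ι → Type*} [∀ i, NormedAddCommGroup (E i)]
    [∀ i, NormedSpace ℝ (E i)] [∀ i, SeparableSpace (E i)] :
    SeparableSpace (lp E 2) := by
  classical
  have hs : IsSeparable (⋃ i, Set.range (fun x : E i => (lp.single 2 i x : lp E 2))) := by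
    refine IsSeparable.iUnion (fun i => ?_)
    have hc : Continuous (fun x : E i => (lp.single 2 i x : lp E 2)) := by
      have : Isometry (fun x : E i => (lp.single 2 i x : lp E 2)) := by
        refine AddMonoidHomClass.isometry_of_norm (lp.singleAddMonoidHom 2 i) (fun x => ?_)
        simp
      exact this.continuous
    exact isSeparable_range hc
  have hspan := hs.span (R := ℝ)
  have hcl := hspan.closure
  have huniv : closure ((Submodule.span ℝ
      (⋃ i, Set.range (fun x : E i => (lp.single 2 i x : lp E 2))) : Submodule ℝ (lp E 2)) :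
        Set (lp E 2)) = Set.univ := by
    refine Set.eq_univ_of_forall (fun f => ?_)
    have hsum := lp.hasSum_single (p := 2) (by norm_num) f
    refine mem_closure_of_tendsto hsum (Filter.Eventually.of_forall (fun s => ?_))
    refine Submodule.sum_mem _ (fun i _ => Submodule.subset_span ?_)
    exact Set.mem_iUnion.mpr ⟨i, ⟨f i, rfl⟩⟩
  rw [huniv] at hcl
  exact (isSeparable_univ_iff).mp hcl

section c0

variable {E : Type*} [NormedAddCommGroup E]

/-- a finitely supported-type function on `ℕ` as an element of `C₀(ℕ, E)` -/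
def ofEventuallyZero (g : ℕ → E) (N : ℕ) (h : ∀ n, N ≤ n → g n = 0) : C₀(ℕ, E) where
  toFun := g
  continuous_toFun := continuous_of_discreteTopology
  zero_at_infty' := by
    rw [cocompact_eq_cofinite, Nat.cofinite_eq_atTop]
    refine tendsto_const_nhds.congr' ?_
    filter_upwards [eventually_ge_atTop N] with n hn
    exact (h n hn).symm

/-- the vector `x` in row `n` -/
def row (n : ℕ) (x : E) : C₀(ℕ, E) :=
  ofEventuallyZero (fun m => if m = n then x else 0) (n + 1) (fun m hm => by
    rw [if_neg]; omega)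

@[simp] lemma row_apply (n : ℕ) (x : E) (m : ℕ) : row n x m = if m = n then x else 0 := rfl

/-- truncation to the first `N` rows -/
def trunc (N : ℕ) (f : C₀(ℕ, E)) : C₀(ℕ, E) :=
  ofEventuallyZero (fun m => if m < N then f m else 0) N (fun m hm => by
    rw [if_neg]; omega)

@[simp] lemma trunc_apply (N : ℕ) (f : C₀(ℕ, E)) (m : ℕ) :
    trunc N f m = if m < N then f m else 0 := rfl

lemma trunc_succ (N : ℕ) (f : C₀(ℕ, E)) : trunc (N + 1) f = trunc N f + row N (f N) := by
  ext m
  simp only [trunc_apply, ZeroAtInftyContinuousMap.add_apply, row_apply]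
  rcases lt_trichotomy m N with h | h | h
  · rw [if_pos (by omega), if_pos h, if_neg (by omega), add_zero]
  · subst h
    rw [if_pos (by omega), if_neg (by omega), if_pos rfl, zero_add]
  · rw [if_neg (by omega), if_neg (by omega), if_neg (by omega), add_zero]

lemma trunc_zero (f : C₀(ℕ, E)) : trunc 0 f = 0 := by
  ext m
  simp

lemma dist_le_of_forall {f g : C₀(ℕ, E)} {C : ℝ} (hC : 0 ≤ C) (h : ∀ n, ‖f n - g n‖ ≤ C) :
    dist f g ≤ C := by
  rw [← ZeroAtInftyContinuousMap.dist_toBCF_eq_dist, BoundedContinuousFunction.dist_le hC]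
  intro n
  rw [dist_eq_norm]
  exact h n

lemma norm_apply_le (f : C₀(ℕ, E)) (n : ℕ) : ‖f n‖ ≤ ‖f‖ := by
  rw [← ZeroAtInftyContinuousMap.norm_toBCF_eq_norm]
  exact f.toBCF.norm_coe_le_norm n

lemma norm_le_of_forall {f : C₀(ℕ, E)} {C : ℝ} (hC : 0 ≤ C) (h : ∀ n, ‖f n‖ ≤ C) :
    ‖f‖ ≤ C := by
  rw [← ZeroAtInftyContinuousMap.norm_toBCF_eq_norm, BoundedContinuousFunction.norm_le hC]
  exact h

lemma exists_tail_lt (f : C₀(ℕ, E)) {ε : ℝ} (hε : 0 < ε) : ∃ N, ∀ n, N ≤ n → ‖f n‖ < ε := by
  have h := f.zero_at_infty'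
  rw [cocompact_eq_cofinite, Nat.cofinite_eq_atTop, Metric.tendsto_atTop] at h
  obtain ⟨N, hN⟩ := h ε hε
  refine ⟨N, fun n hn => ?_⟩
  have := hN n hn
  rwa [dist_zero_right] at this

lemma tendsto_trunc (f : C₀(ℕ, E)) : Tendsto (fun N => trunc N f) atTop (𝓝 f) := by
  rw [Metric.tendsto_atTop]
  intro ε hε
  obtain ⟨N, hN⟩ := exists_tail_lt f (half_pos hε)
  refine ⟨N, fun n hn => ?_⟩
  refine lt_of_le_of_lt (dist_le_of_forall (half_pos hε).le (fun m => ?_)) (half_lt_self hε)
  rw [trunc_apply]
  split_ifs with hm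
  · simp [(half_pos hε).le]
  · rw [zero_sub, norm_neg]
    exact (hN m (by omega)).le

lemma norm_row (n : ℕ) (x : E) : ‖row n x‖ = ‖x‖ := by
  apply le_antisymm
  · refine norm_le_of_forall (norm_nonneg _) (fun m => ?_)
    rw [row_apply]
    split_ifs
    · exact le_rfl
    · simp
  · have := norm_apply_le (row n x) n
    simpa using this

lemma row_sub (n : ℕ) (x y : E) : row n x - row n y = row n (x - y) := by
  ext m
  simp only [ZeroAtInftyContinuousMap.sub_apply, row_apply]
  split_ifs <;> simp

lemma continuous_row (n : ℕ) : Continuous (fun x : E => row n x) := by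
  have : Isometry (fun x : E => row n x) := by
    refine Isometry.of_dist_eq (fun x y => ?_)
    rw [dist_eq_norm, dist_eq_norm, row_sub, norm_row]
  exact this.continuous

theorem separable_c0 [NormedSpace ℝ E] [SeparableSpace E] : SeparableSpace C₀(ℕ, E) := by
  have hs : IsSeparable (⋃ n, Set.range (fun x : E => row n x)) :=
    IsSeparable.iUnion (fun n => isSeparable_range (continuous_row n))
  have hcl := (hs.span (R := ℝ)).closure
  have huniv : closure ((Submodule.span ℝ (⋃ n, Set.range (fun x : E => row n x)) :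
      Submodule ℝ C₀(ℕ, E)) : Set C₀(ℕ, E)) = Set.univ := by
    refine Set.eq_univ_of_forall (fun f => ?_)
    refine mem_closure_of_tendsto (tendsto_trunc f) (Filter.Eventually.of_forall (fun N => ?_))
    induction N with
    | zero => rw [trunc_zero]; exact Submodule.zero_mem _
    | succ N ih =>
      rw [trunc_succ]
      refine Submodule.add_mem _ ih (Submodule.subset_span ?_)
      exact Set.mem_iUnion.mpr ⟨N, ⟨f N, rfl⟩⟩
  rw [huniv] at hcl
  exact (isSeparable_univ_iff).mp hcl

end c0

theorem separable_c0l2 : SeparableSpace C₀(ℕ, lp (fun _ : ℕ => ℝ) 2) :=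
  haveI : SeparableSpace (lp (fun _ : ℕ => ℝ) 2) := separable_lp_real
  separable_c0

end Claimed.Agent.R193.Sep
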