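/-
Row 193, conditional chain for S0394 (B27).

`Crux394`  : a separable Banach space `Y` without a linear copy of `A = c_0(ℓ_2)` and a bijection
             `Ψ : Y × A ≃ Y` with constants `4/21`, `76/25`.
`CruxP`    : the frame (P) of crux #137 with `K = 51/25`, `L = 25/12`.
`result_of_crux394 : Crux394 → MainClaim`, `crux394_of_cruxP : CruxP → Crux394`.
-/
import Claimed.Statements.S0394
import Claimed.Agent.R193.Sep
import Claimed.Agent.R193.FrameP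

set_option autoImplicit false
open Claims Claims.C0335 Claims.C0335.LipschitzCounterexample

namespace Claimed.Agent.R193.Chain394

/-- The crux of S0394, direct form: `Y` absorbs `c_0(ℓ_2)` but does not contain it. -/
def Crux394 : Prop :=
  ∃ (Y : SeparableRealBanach) (Ψ : Y.Carrier × C0L2 ≃ Y.Carrier),
    (∀ s t : Y.Carrier × C0L2,
      (4 / 21 : ℝ) * ‖s - t‖ ≤ ‖Ψ s - Ψ t‖ ∧ ‖Ψ s - Ψ t‖ ≤ (76 / 25 : ℝ) * ‖s - t‖) ∧
    ¬ ContainsLinearCopy C0L2 Y.Carrier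

/-- The crux of S0394, frame (P). -/
def CruxP : Prop :=
  ∃ (Y : SeparableRealBanach) (V : Type) (_ : NormedAddCommGroup V) (_ : NormedSpace ℝ V)
    (π : Y.Carrier →L[ℝ] V) (Lam : V × C0L2 → Y.Carrier),
    (∀ y, ‖π y‖ ≤ ‖y‖) ∧
    (∀ p q, ‖Lam p - Lam q‖ ≤ (51 / 25 : ℝ) * ‖p - q‖) ∧
    Function.Bijective (fun p : V × C0L2 => p.1 + π (Lam p)) ∧
    (∀ p q : V × C0L2, ‖p - q‖ ≤ (25 / 12 : ℝ) * ‖(p.1 + π (Lam p)) - (q.1 + π (Lam q))‖) ∧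
    ¬ ContainsLinearCopy C0L2 Y.Carrier

theorem crux394_of_cruxP (h : CruxP) : Crux394 := by
  obtain ⟨Y, V, i1, i2, π, Lam, hπ, hK, hb, hL, hno⟩ := h
  obtain ⟨Ψ, hΨ⟩ := Claimed.Agent.R193.FrameP.absorb_of_P π hπ Lam (51 / 25) (25 / 12)
    (by norm_num) (by norm_num) hK hb hL
  refine ⟨Y, Ψ, fun s t => ⟨?_, ?_⟩, hno⟩
  · have := (hΨ s t).1
    have h0 : 0 ≤ ‖Ψ s - Ψ t‖ := norm_nonneg _
    nlinarith
  · have := (hΨ s t).2
    have h0 : 0 ≤ ‖s - t‖ := norm_nonneg _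
    nlinarith

/-- The crux of S0394, scale-free form: only the distortion `C / c ≤ 399/25 = 15.96` matters. -/
def CruxDist : Prop :=
  ∃ (Y : SeparableRealBanach) (Ψ : Y.Carrier × C0L2 ≃ Y.Carrier) (c C : ℝ),
    0 < c ∧ C ≤ (399 / 25 : ℝ) * c ∧
    (∀ s t : Y.Carrier × C0L2, c * ‖s - t‖ ≤ ‖Ψ s - Ψ t‖ ∧ ‖Ψ s - Ψ t‖ ≤ C * ‖s - t‖) ∧
    ¬ ContainsLinearCopy C0L2 Y.Carrier

theorem crux394_of_cruxDist (h : CruxDist) : Crux394 := by
  obtain ⟨Y, Ψ, c, C, hc, hC, hΨ, hno⟩ := h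
  set τ : ℝ := 4 / 21 / c with hτ
  have hτ0 : 0 < τ := by positivity
  have hτc : τ * c = 4 / 21 := by rw [hτ]; field_simp
  refine ⟨Y, Ψ.trans (Homeomorph.smulOfNeZero τ hτ0.ne').toEquiv, fun s t => ?_, hno⟩
  have e : ∀ s, (Ψ.trans (Homeomorph.smulOfNeZero τ hτ0.ne').toEquiv) s = τ • Ψ s := fun s => rfl
  rw [e, e, ← smul_sub, norm_smul, Real.norm_of_nonneg hτ0.le]
  have h0 : 0 ≤ ‖s - t‖ := norm_nonneg _
  constructor
  · calc (4 / 21 : ℝ) * ‖s - t‖ = τ * (c * ‖s - t‖) := by rw [← hτc]; ring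
      _ ≤ τ * ‖Ψ s - Ψ t‖ := mul_le_mul_of_nonneg_left (hΨ s t).1 hτ0.le
  · calc τ * ‖Ψ s - Ψ t‖ ≤ τ * (C * ‖s - t‖) := mul_le_mul_of_nonneg_left (hΨ s t).2 hτ0.le
      _ ≤ τ * ((399 / 25 : ℝ) * c * ‖s - t‖) :=
          mul_le_mul_of_nonneg_left (mul_le_mul_of_nonneg_right hC h0) hτ0.le
      _ = (399 / 25 : ℝ) * (τ * c) * ‖s - t‖ := by ring
      _ = (76 / 25 : ℝ) * ‖s - t‖ := by rw [hτc]; ring

/-- the space `X = Y × c_0(ℓ_2)` -/
noncomputable def prodSpace (Y : SeparableRealBanach) : SeparableRealBanach :=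
  haveI : TopologicalSpace.SeparableSpace C0L2 := Claimed.Agent.R193.Sep.separable_c0l2
  { Carrier := Y.Carrier × C0L2 }

theorem result_of_crux394 (h : Crux394) : MainClaim := by
  obtain ⟨Y, Ψ, hΨ, hno⟩ := h
  refine ⟨prodSpace Y, Y, Ψ, hΨ, ?_, ?_, hno⟩
  · refine ⟨fun e => hno ?_⟩
    change (Y.Carrier × C0L2) ≃L[ℝ] Y.Carrier at e
    set N : ℝ := ‖(e.symm : Y.Carrier →L[ℝ] (Y.Carrier × C0L2))‖ with hN
    have hN0 : 0 ≤ N := (e.symm : Y.Carrier →L[ℝ] (Y.Carrier × C0L2)).opNorm_nonneg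
    refine ⟨(e : (Y.Carrier × C0L2) →L[ℝ] Y.Carrier).comp
      (ContinuousLinearMap.inr ℝ Y.Carrier C0L2), 1 / (N + 1), by positivity, fun x => ?_⟩
    have h1 : ‖((0 : Y.Carrier), x)‖ ≤ N * ‖e ((0 : Y.Carrier), x)‖ := by
      have := (e.symm : Y.Carrier →L[ℝ] (Y.Carrier × C0L2)).le_opNorm (e ((0 : Y.Carrier), x))
      simpa using this
    have h2 : ‖((0 : Y.Carrier), x)‖ = ‖x‖ := by
      rw [Prod.norm_def]; simp
    have h3 : ((e : (Y.Carrier × C0L2) →L[ℝ] Y.Carrier).comp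
        (ContinuousLinearMap.inr ℝ Y.Carrier C0L2)) x = e ((0 : Y.Carrier), x) := by simp
    rw [h3, div_mul_eq_mul_div, one_mul, div_le_iff₀ (by positivity)]
    have h4 : 0 ≤ ‖e ((0 : Y.Carrier), x)‖ := norm_nonneg _
    nlinarith
  · refine ⟨?_⟩
    change C0L2 →ₗᵢ[ℝ] (Y.Carrier × C0L2)
    exact
      { toLinearMap := LinearMap.inr ℝ Y.Carrier C0L2
        norm_map' := fun x => by
          show ‖((0 : Y.Carrier), x)‖ = ‖x‖
          rw [Prod.norm_def]; simp }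

end Claimed.Agent.R193.Chain394
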