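/-
Row 193: the frame (P) (crux #137).

`π : Y → V` linear with `‖π y‖ ≤ ‖y‖`, `Λ : V × A → Y` `K`-Lipschitz, and
`h (v, a) = v + π (Λ (v, a))` a bijection `V × A → V` with `‖p - q‖ ≤ L ‖h p - h q‖`.
Then `Ψ (y, a) = y + Λ (π y, a)` is a bijection `Y × A → Y` with
`‖Ψ s - Ψ t‖ ≤ (1 + K) ‖s - t‖` and `‖s - t‖ ≤ (1 + K L) ‖Ψ s - Ψ t‖`.
Inverse: `w ↦ (w - Λ p, p.2)` with `p = h⁻¹ (π w)`.
-/
import Mathlib

set_option autoImplicit false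

namespace Claimed.Agent.R193.FrameP

variable {Y V A : Type*} [NormedAddCommGroup Y] [NormedSpace ℝ Y] [NormedAddCommGroup V]
  [NormedSpace ℝ V] [NormedAddCommGroup A]

/-- the hotel map on `V` -/
def hmap (π : Y →L[ℝ] V) (Lam : V × A → Y) (p : V × A) : V := p.1 + π (Lam p)

/-- the absorbing map on `Y` -/
def psi (π : Y →L[ℝ] V) (Lam : V × A → Y) (s : Y × A) : Y := s.1 + Lam (π s.1, s.2)

omit [NormedAddCommGroup A] in
lemma pi_psi (π : Y →L[ℝ] V) (Lam : V × A → Y) (s : Y × A) :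
    π (psi π Lam s) = hmap π Lam (π s.1, s.2) := by
  simp [psi, hmap]

lemma psi_upper (π : Y →L[ℝ] V) (hπ : ∀ y, ‖π y‖ ≤ ‖y‖) (Lam : V × A → Y) (K : ℝ) (hK0 : 0 ≤ K)
    (hK : ∀ p q, ‖Lam p - Lam q‖ ≤ K * ‖p - q‖) (s t : Y × A) :
    ‖psi π Lam s - psi π Lam t‖ ≤ (1 + K) * ‖s - t‖ := by
  have h1 : ‖s.1 - t.1‖ ≤ ‖s - t‖ := norm_fst_le (s - t)
  have h2 : ‖s.2 - t.2‖ ≤ ‖s - t‖ := norm_snd_le (s - t)
  have h3 : ‖((π s.1, s.2) : V × A) - (π t.1, t.2)‖ ≤ ‖s - t‖ := by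
    rw [Prod.norm_def]
    refine max_le ?_ h2
    show ‖π s.1 - π t.1‖ ≤ _
    rw [← map_sub]
    exact (hπ _).trans h1
  have h4 := hK (π s.1, s.2) (π t.1, t.2)
  have h5 : psi π Lam s - psi π Lam t
      = (s.1 - t.1) + (Lam (π s.1, s.2) - Lam (π t.1, t.2)) := by
    simp only [psi]; abel
  rw [h5]
  refine (norm_add_le _ _).trans ?_
  have h6 : K * ‖((π s.1, s.2) : V × A) - (π t.1, t.2)‖ ≤ K * ‖s - t‖ :=
    mul_le_mul_of_nonneg_left h3 hK0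
  linarith

lemma psi_lower (π : Y →L[ℝ] V) (hπ : ∀ y, ‖π y‖ ≤ ‖y‖) (Lam : V × A → Y) (K L : ℝ) (hK1 : 1 ≤ K)
    (hK : ∀ p q, ‖Lam p - Lam q‖ ≤ K * ‖p - q‖)
    (hL : ∀ p q, ‖p - q‖ ≤ L * ‖hmap π Lam p - hmap π Lam q‖) (hL1 : 0 ≤ L) (s t : Y × A) :
    ‖s - t‖ ≤ (1 + K * L) * ‖psi π Lam s - psi π Lam t‖ := by
  have hK0 : 0 ≤ K := zero_le_one.trans hK1
  set δ := ‖psi π Lam s - psi π Lam t‖ with hδ
  have hδ0 : 0 ≤ δ := norm_nonneg _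
  have h1 : ‖hmap π Lam (π s.1, s.2) - hmap π Lam (π t.1, t.2)‖ ≤ δ := by
    rw [← pi_psi, ← pi_psi, ← map_sub]
    exact hπ _
  have h2 : ‖((π s.1, s.2) : V × A) - (π t.1, t.2)‖ ≤ L * δ :=
    (hL _ _).trans (mul_le_mul_of_nonneg_left h1 hL1)
  have h3 : ‖s.2 - t.2‖ ≤ L * δ := (norm_snd_le (((π s.1, s.2) : V × A) - (π t.1, t.2))).trans h2
  have h4 : ‖Lam (π s.1, s.2) - Lam (π t.1, t.2)‖ ≤ K * (L * δ) :=
    (hK _ _).trans (mul_le_mul_of_nonneg_left h2 hK0)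
  have h5 : s.1 - t.1 = (psi π Lam s - psi π Lam t) - (Lam (π s.1, s.2) - Lam (π t.1, t.2)) := by
    simp only [psi]; abel
  have h6 : ‖s.1 - t.1‖ ≤ δ + K * (L * δ) := by
    rw [h5]
    exact (norm_sub_le _ _).trans (by linarith)
  have h7 : 0 ≤ L * δ := mul_nonneg hL1 hδ0
  rw [Prod.norm_def]
  refine max_le ?_ ?_
  · show ‖s.1 - t.1‖ ≤ _
    linarith
  · show ‖s.2 - t.2‖ ≤ _
    nlinarith

/-- the inverse of `psi` -/
noncomputable def psiInv (π : Y →L[ℝ] V) (Lam : V × A → Y)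
    (hb : Function.Bijective (hmap π Lam)) (w : Y) : Y × A :=
  (w - Lam ((Equiv.ofBijective _ hb).symm (π w)), ((Equiv.ofBijective _ hb).symm (π w)).2)

omit [NormedAddCommGroup A] in
lemma psi_psiInv (π : Y →L[ℝ] V) (Lam : V × A → Y)
    (hb : Function.Bijective (hmap π Lam)) (w : Y) : psi π Lam (psiInv π Lam hb w) = w := by
  set p := (Equiv.ofBijective _ hb).symm (π w) with hp
  have h1 : hmap π Lam p = π w := (Equiv.ofBijective _ hb).apply_symm_apply (π w)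
  have h2 : π (w - Lam p) = p.1 := by
    rw [map_sub, ← h1]
    simp [hmap]
  show (w - Lam p) + Lam (π (w - Lam p), p.2) = w
  rw [h2]
  simp

omit [NormedAddCommGroup A] in
lemma psiInv_psi (π : Y →L[ℝ] V) (Lam : V × A → Y)
    (hb : Function.Bijective (hmap π Lam)) (s : Y × A) : psiInv π Lam hb (psi π Lam s) = s := by
  have h1 : (Equiv.ofBijective _ hb).symm (π (psi π Lam s)) = (π s.1, s.2) := by
    rw [pi_psi]
    exact (Equiv.ofBijective _ hb).symm_apply_apply _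
  unfold psiInv
  rw [h1]
  ext <;> simp [psi]

/-- the absorbing bijection -/
noncomputable def psiEquiv (π : Y →L[ℝ] V) (Lam : V × A → Y)
    (hb : Function.Bijective (hmap π Lam)) : Y × A ≃ Y where
  toFun := psi π Lam
  invFun := psiInv π Lam hb
  left_inv := psiInv_psi π Lam hb
  right_inv := psi_psiInv π Lam hb

/-- **Frame (P).** -/
theorem absorb_of_P (π : Y →L[ℝ] V) (hπ : ∀ y, ‖π y‖ ≤ ‖y‖) (Lam : V × A → Y) (K L : ℝ)
    (hK1 : 1 ≤ K) (hL0 : 0 ≤ L) (hK : ∀ p q, ‖Lam p - Lam q‖ ≤ K * ‖p - q‖)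
    (hb : Function.Bijective (fun p : V × A => p.1 + π (Lam p)))
    (hL : ∀ p q : V × A, ‖p - q‖ ≤ L * ‖(p.1 + π (Lam p)) - (q.1 + π (Lam q))‖) :
    ∃ Ψ : Y × A ≃ Y, ∀ s t, ‖s - t‖ ≤ (1 + K * L) * ‖Ψ s - Ψ t‖ ∧
      ‖Ψ s - Ψ t‖ ≤ (1 + K) * ‖s - t‖ :=
  ⟨psiEquiv π Lam hb, fun s t =>
    ⟨psi_lower π hπ Lam K L hK1 hK hL hL0 s t,
      psi_upper π hπ Lam K (zero_le_one.trans hK1) hK s t⟩⟩

end Claimed.Agent.R193.FrameP
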