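/-
Row 193, chain for S0394: the soft non-containment lemma.

If `W` contains no linear copy of `c_0` and `U` contains no linear copy of `ℓ_2`
then `W × U` contains no linear copy of `c_0(ℓ_2)`.

Proof.  `T = (T1, T2) : c_0(ℓ_2) → W × U`, `a ‖x‖ ≤ ‖T x‖`.  `T2` restricted to row `n` is not
bounded below: pick a unit vector `u n` of `ℓ_2` with `‖T2 (row n (u n))‖ ≤ a / 2^(n+2)`.
`J t = (t n • u n)_n` is an isometry `c_0 → c_0(ℓ_2)`, `‖T2 (J t)‖ ≤ (a/2) ‖t‖` (truncate), so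
`(a/2) ‖t‖ ≤ ‖T1 (J t)‖`.
-/
import Claimed.Prelude.Def_0335
import Claimed.Agent.R193.Sep

set_option autoImplicit false
open Claims Claims.C0335 Claims.C0335.LipschitzCounterexample
open Filter Topology
open scoped ZeroAtInfty

namespace Claimed.Agent.R193.Soft

open Claimed.Agent.R193.Sep

variable {E : Type*} [NormedAddCommGroup E] [NormedSpace ℝ E]

omit [NormedSpace ℝ E] in
lemma row_add (n : ℕ) (x y : E) : row n (x + y) = row n x + row n y := by
  ext m
  simp only [ZeroAtInftyContinuousMap.add_apply, row_apply]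
  split_ifs <;> simp

lemma row_smul (n : ℕ) (c : ℝ) (x : E) : row n (c • x) = c • row n x := by
  ext m
  simp only [ZeroAtInftyContinuousMap.smul_apply, row_apply]
  split_ifs <;> simp

/-- row embedding as a continuous linear map -/
noncomputable def rowL (n : ℕ) : E →L[ℝ] C₀(ℕ, E) :=
  LinearMap.mkContinuous
    { toFun := row n
      map_add' := row_add n
      map_smul' := row_smul n } 1 (fun x => by
        show ‖row n x‖ ≤ 1 * ‖x‖
        rw [norm_row, one_mul])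

@[simp] lemma rowL_apply (n : ℕ) (x : E) : rowL n x = row n x := rfl

/-- the diagonal element `(t n • u n)` -/
noncomputable def diag (u : ℕ → E) (hu : ∀ n, ‖u n‖ = 1) (t : C₀(ℕ, ℝ)) : C₀(ℕ, E) where
  toFun n := t n • u n
  continuous_toFun := continuous_of_discreteTopology
  zero_at_infty' := by
    have h := t.zero_at_infty'
    rw [tendsto_zero_iff_norm_tendsto_zero] at h ⊢
    refine h.congr (fun n => ?_)
    rw [norm_smul, hu n, mul_one]
    rfl

@[simp] lemma diag_apply (u : ℕ → E) (hu : ∀ n, ‖u n‖ = 1) (t : C₀(ℕ, ℝ)) (n : ℕ) :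
    diag u hu t n = t n • u n := rfl

lemma norm_diag (u : ℕ → E) (hu : ∀ n, ‖u n‖ = 1) (t : C₀(ℕ, ℝ)) : ‖diag u hu t‖ = ‖t‖ := by
  apply le_antisymm
  · refine norm_le_of_forall (norm_nonneg _) (fun n => ?_)
    rw [diag_apply, norm_smul, hu n, mul_one]
    exact norm_apply_le t n
  · refine norm_le_of_forall (norm_nonneg _) (fun n => ?_)
    have := norm_apply_le (diag u hu t) n
    rwa [diag_apply, norm_smul, hu n, mul_one] at this

/-- the diagonal embedding as a continuous linear map -/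
noncomputable def diagL (u : ℕ → E) (hu : ∀ n, ‖u n‖ = 1) : C₀(ℕ, ℝ) →L[ℝ] C₀(ℕ, E) :=
  LinearMap.mkContinuous
    { toFun := diag u hu
      map_add' := fun s t => by
        ext n
        simp [add_smul]
      map_smul' := fun c t => by
        ext n
        simp [mul_smul] } 1 (fun t => by
        show ‖diag u hu t‖ ≤ 1 * ‖t‖
        rw [norm_diag, one_mul])

@[simp] lemma diagL_apply (u : ℕ → E) (hu : ∀ n, ‖u n‖ = 1) (t : C₀(ℕ, ℝ)) :
    diagL u hu t = diag u hu t := rfl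

/-- an operator that is small on the rows `row n (u n)` is small on the diagonal copy of `c_0` -/
lemma norm_map_diag_le {U : Type*} [NormedAddCommGroup U] [NormedSpace ℝ U]
    (S : C₀(ℕ, E) →L[ℝ] U) (u : ℕ → E) (hu : ∀ n, ‖u n‖ = 1) (a : ℝ) (ha : 0 ≤ a)
    (hS : ∀ n, ‖S (row n (u n))‖ ≤ a / 2 ^ (n + 2)) (t : C₀(ℕ, ℝ)) :
    ‖S (diag u hu t)‖ ≤ a / 2 * ‖t‖ := by
  have hstep : ∀ N : ℕ, ‖S (trunc N (diag u hu t))‖ ≤ a / 2 * (1 - 1 / 2 ^ N) * ‖t‖ := by
    intro N
    induction N with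
    | zero => simp [trunc_zero]
    | succ N ih =>
      rw [trunc_succ, map_add, diag_apply, row_smul, map_smul]
      refine (norm_add_le _ _).trans ?_
      rw [norm_smul]
      have h1 : ‖t N‖ ≤ ‖t‖ := norm_apply_le t N
      have h2 := hS N
      have h3 : ‖t N‖ * ‖S (row N (u N))‖ ≤ ‖t‖ * (a / 2 ^ (N + 2)) :=
        mul_le_mul h1 h2 (norm_nonneg _) (norm_nonneg _)
      have h4 : a / 2 * (1 - 1 / 2 ^ (N + 1)) * ‖t‖
          = a / 2 * (1 - 1 / 2 ^ N) * ‖t‖ + ‖t‖ * (a / 2 ^ (N + 2)) := by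
        field_simp
        ring
      rw [h4]
      linarith
  have hlim : Tendsto (fun N => ‖S (trunc N (diag u hu t))‖) atTop (𝓝 ‖S (diag u hu t)‖) :=
    ((S.continuous.tendsto _).comp (tendsto_trunc (diag u hu t))).norm
  refine le_of_tendsto hlim (Eventually.of_forall (fun N => (hstep N).trans ?_))
  have h5 : (0 : ℝ) ≤ 1 / 2 ^ N := by positivity
  have h6 : a / 2 * (1 - 1 / 2 ^ N) ≤ a / 2 := by nlinarith
  exact mul_le_mul_of_nonneg_right h6 (norm_nonneg _)

/-- **Soft lemma.** -/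
theorem soft {W U : Type*} [NormedAddCommGroup W] [NormedSpace ℝ W] [NormedAddCommGroup U]
    [NormedSpace ℝ U] (hW : ¬ ContainsLinearCopy C₀(ℕ, ℝ) W) (hU : ¬ ContainsLinearCopy E U) :
    ¬ ContainsLinearCopy C₀(ℕ, E) (W × U) := by
  rintro ⟨T, a, ha, hT⟩
  set T1 : C₀(ℕ, E) →L[ℝ] W := (ContinuousLinearMap.fst ℝ W U).comp T with hT1
  set T2 : C₀(ℕ, E) →L[ℝ] U := (ContinuousLinearMap.snd ℝ W U).comp T with hT2
  have hex : ∀ n : ℕ, ∃ v : E, ‖v‖ = 1 ∧ ‖T2 (row n v)‖ ≤ a / 2 ^ (n + 2) := by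
    intro n
    by_contra hcon
    apply hU
    refine ⟨T2.comp (rowL n), a / 2 ^ (n + 2), by positivity, fun x => ?_⟩
    rcases eq_or_ne x 0 with rfl | hx
    · simp
    have hx0 : 0 < ‖x‖ := norm_pos_iff.2 hx
    by_contra hlt
    replace hlt := lt_of_not_ge hlt
    apply hcon
    refine ⟨‖x‖⁻¹ • x, ?_, ?_⟩
    · rw [norm_smul, norm_inv, norm_norm, inv_mul_cancel₀ hx0.ne']
    · rw [row_smul, map_smul, norm_smul, norm_inv, norm_norm]
      have : ‖T2 (row n x)‖ < a / 2 ^ (n + 2) * ‖x‖ := hlt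
      rw [inv_mul_le_iff₀ hx0]
      linarith
  choose u hu hS using hex
  apply hW
  refine ⟨T1.comp (diagL u hu), a / 2, by positivity, fun t => ?_⟩
  have h1 := hT (diag u hu t)
  rw [norm_diag] at h1
  have h2 := norm_map_diag_le T2 u hu a ha.le hS t
  have h3 : ‖T (diag u hu t)‖ = max ‖T1 (diag u hu t)‖ ‖T2 (diag u hu t)‖ := by
    rw [Prod.norm_def]; rfl
  rw [h3] at h1
  have h0 : 0 ≤ ‖t‖ := norm_nonneg _
  show a / 2 * ‖t‖ ≤ ‖T1 (diag u hu t)‖
  rcases le_max_iff.1 h1 with h | h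
  · nlinarith
  · have h4 : ‖t‖ ≤ 0 := by nlinarith
    have h5 : ‖t‖ = 0 := le_antisymm h4 h0
    rw [h5, mul_zero]
    exact norm_nonneg _

/-- the soft lemma for `c_0(ℓ_2)` -/
theorem soft_c0l2 {W U : Type*} [NormedAddCommGroup W] [NormedSpace ℝ W] [NormedAddCommGroup U]
    [NormedSpace ℝ U] (hW : ¬ ContainsLinearCopy C₀(ℕ, ℝ) W)
    (hU : ¬ ContainsLinearCopy RealL2 U) : ¬ ContainsLinearCopy C0L2 (W × U) :=
  soft hW hU

end Claimed.Agent.R193.Soft
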